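import Vale.Agent.Lib.P322.Tree

/-!
# P322 (Courtade–Kumar conjecture): the class generated by gluing sections

Bits are `Bool`s and a cube is `ι → Bool` for a finite index type `ι`.

* `X` is uniform on the cube, `Y` is the output of the memoryless binary symmetric channel with
  crossover probability `ε` on input `X` (`bscN ε x y` is the product over the coordinates `j`
  of `bsc ε (x j) (y j)`, and `bsc ε z w = 1 - ε` if `z = w`, `ε` otherwise).
* `joint W f b y` is the probability that `f X = b` and `Y = y`; `mutualInfo J` is the mutual
  information in bits of a pair with joint probability mass function `J`;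
  `h2 p = -p log₂ p - (1-p) log₂ (1-p)`.

`Glued` is the smallest class of Boolean functions on finite cubes such that

* (`odd`) it contains every function `g` on a cube `ι → Bool` for which there is a coordinate
  `i` such that flipping the `i`-th bit of any input always changes the value of `g`;
* (`glue`) for `g : (ι → Bool) → (κ → Bool) → Bool`, if every section `g x` is in the class,
  then the function `z ↦ g (z ∘ inl) (z ∘ inr)` on the cube `ι ⊕ κ → Bool` is in the class;
* (`relabel`) it is closed under relabelling the coordinates by a bijection `e : ι ≃ ι'`.

The theorem: every function of the class `Glued` satisfies the Courtade–Kumar inequality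
`I(g(X); Y) ≤ 1 - h₂(ε)`, for every `ε ∈ [0, 1]`.
-/

namespace Vale.Agent.Results.P322.GluedClass

open Vale.Agent.Lib.P322

theorem result {ι : Type} [Fintype ι] [DecidableEq ι] (ε : ℝ) (h0 : 0 ≤ ε) (h1 : ε ≤ 1)
    (g : (ι → Bool) → Bool) (hg : Glued g) :
    mutualInfo (joint (bscN ε) g) ≤ 1 - h2 ε :=
  (glued_ck h0 h1 g hg).2

end Vale.Agent.Results.P322.GluedClass
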