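import Vale.Agent.Lib.P322.Coord

/-!
# P322 (Courtade–Kumar conjecture): Boolean functions that are odd in one coordinate

Bits are `Bool`s and the cube is `ι → Bool` for a finite index type `ι`.

* `X` is uniform on the cube `ι → Bool`.
* `Y` is the output of the memoryless binary symmetric channel with crossover probability `ε`
  on input `X`: given `X = x`, the probability of `Y = y` is `bscN ε x y`, the product over
  `j : ι` of `bsc ε (x j) (y j)`, where `bsc ε z w = 1 - ε` if `z = w` and `ε` otherwise (every
  bit is flipped independently with probability `ε`).
* `joint W g b y` is the probability that `g X = b` and `Y = y`.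
* `mutualInfo J` is the mutual information in bits of a pair with joint probability mass
  function `J`, and `h2 p = -p log₂ p - (1-p) log₂ (1-p)`.

The theorem: let `g` be a Boolean function on the cube and `i` a coordinate such that flipping
the `i`-th bit of any input always changes the value of `g`.  Then, for every `ε ∈ [0, 1]`,
`g` satisfies the Courtade–Kumar inequality `I(g(X); Y) ≤ 1 - h₂(ε)`.
-/

namespace Vale.Agent.Results.P322.OddCoordinate

open Vale.Agent.Lib.P322

theorem result {ι : Type} [Fintype ι] [DecidableEq ι] (ε : ℝ) (h0 : 0 ≤ ε) (h1 : ε ≤ 1)
    (i : ι) (g : (ι → Bool) → Bool) (hg : ∀ x, g (Function.update x i (!x i)) = !g x) :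
    mutualInfo (joint (bscN ε) g) ≤ 1 - h2 ε :=
  ck_coord h0 h1 i g hg

end Vale.Agent.Results.P322.OddCoordinate
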