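import Vale.Agent.Lib.P322.Mix

/-!
# P322 (Courtade–Kumar conjecture): mixtures of balanced sections; sections odd in a coordinate

Bits are `Bool`s.  The cube is `ι ⊕ κ → Bool`: its coordinates are split into two blocks `ι` and
`κ`, and a Boolean function on it is written `z ↦ g x x'` with `x = (z (inl i))_i` the first
block and `x' = (z (inr k))_k` the second.  For each `x`, `g x : (κ → Bool) → Bool` is the
*section* of the function at `x`.

* `X` is uniform on a cube, `Y` is the output of the memoryless binary symmetric channel with
  crossover probability `ε` on input `X` (`bscN ε x y` is the product over the coordinates `j`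
  of `bsc ε (x j) (y j)`, and `bsc ε z w = 1 - ε` if `z = w`, `ε` otherwise).
* `joint W f b y` is the probability that `f X = b` and `Y = y`; `mutualInfo J` is the mutual
  information in bits of a pair with joint probability mass function `J`;
  `h2 p = -p log₂ p - (1-p) log₂ (1-p)`.

For every `ε ∈ [0, 1]`:

1. (mixture inequality) if every section `g x` is balanced (it takes the values `true` and
   `false` equally often), then `I(g(X); Y)` on the cube `ι ⊕ κ → Bool` is at most the average
   over the `2^|ι|` points `x` of `I(g x (X'); Y')` on the cube `κ → Bool`;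
2. if for every `x` there is a coordinate `k` of the second block (it may depend on `x`) such
   that flipping the `k`-th bit of `x'` always changes `g x x'`, then the function satisfies the
   Courtade–Kumar inequality `I(g(X); Y) ≤ 1 - h₂(ε)`.
-/

namespace Vale.Agent.Results.P322.OddSections

open Vale.Agent.Lib.P322

theorem result {ι κ : Type} [Fintype ι] [DecidableEq ι] [Fintype κ] [DecidableEq κ] (ε : ℝ)
    (h0 : 0 ≤ ε) (h1 : ε ≤ 1) (g : (ι → Bool) → (κ → Bool) → Bool) :
    ((∀ x, (Finset.univ.filter (fun x' => g x x' = true)).card
          = (Finset.univ.filter (fun x' => g x x' = false)).card) →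
      mutualInfo (joint (bscN ε) (fun z : ι ⊕ κ → Bool =>
          g (fun i => z (Sum.inl i)) (fun k => z (Sum.inr k))))
        ≤ (∑ x, mutualInfo (joint (bscN ε) (g x))) / 2 ^ Fintype.card ι) ∧
    ((∀ x, ∃ k : κ, ∀ x', g x (Function.update x' k (!x' k)) = !g x x') →
      mutualInfo (joint (bscN ε) (fun z : ι ⊕ κ → Bool =>
          g (fun i => z (Sum.inl i)) (fun k => z (Sum.inr k)))) ≤ 1 - h2 ε) :=
  ⟨fun hbal => mi_mix_sum_le h0 h1 g hbal, fun hg => ck_sections h0 h1 g hg⟩

end Vale.Agent.Results.P322.OddSections
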