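import Vale.Agent.Lib.P322.Matching

/-!
# P322 (Courtade–Kumar conjecture): functions whose sensitive edges contain a perfect matching

Bits are `Bool`s and the cube is `ι → Bool` for a finite index type `ι`.

* `X` is uniform on the cube `ι → Bool`.
* `Y` is the output of the memoryless binary symmetric channel with crossover probability `ε`
  on input `X`: given `X = x`, the probability of `Y = y` is `bscN ε x y`, the product over
  `j : ι` of `bsc ε (x j) (y j)`, where `bsc ε z w = 1 - ε` if `z = w` and `ε` otherwise (every
  bit is flipped independently with probability `ε`).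
* `joint W g b y` is the probability that `g X = b` and `Y = y`.
* `mutualInfo J` is the mutual information in bits of a pair with joint probability mass
  function `J`, and `h2 p = -p log₂ p - (1-p) log₂ (1-p)`.

The theorem has two parts.

1. Let `g` be a Boolean function on the cube and let `s` assign a coordinate `s x` to every
   input `x` such that, for `x'` the input `x` with the bit `s x` flipped, `s x' = s x` and
   `g x' ≠ g x`.  (The pairs `{x, x'}` form a perfect matching of the cube graph along whose
   edges `g` changes.)  Then, for every `ε ∈ [0, 1]`, `I(g(X); Y) ≤ 1 - h₂(ε)`.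
2. In particular, on the cube indexed by the disjoint union `ι ⊕ κ`, with an input written as
   `(u, z)` (`u` its restriction to `ι`, `z` its restriction to `κ`), the same inequality holds
   for every selector function `g (u, z) = z (sel u) XOR f u`, with `sel : (ι → Bool) → κ` and
   `f : (ι → Bool) → Bool` arbitrary.
-/

namespace Vale.Agent.Results.P322.SensitiveMatching

open Vale.Agent.Lib.P322 Vale.Agent.Lib.P322.SM

theorem result :
    (∀ {ι : Type} [Fintype ι] [DecidableEq ι] (ε : ℝ), 0 ≤ ε → ε ≤ 1 →
      ∀ (g : (ι → Bool) → Bool) (s : (ι → Bool) → ι),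
        (∀ x, s (Function.update x (s x) (!x (s x))) = s x) →
        (∀ x, g (Function.update x (s x) (!x (s x))) = !g x) →
        mutualInfo (joint (bscN ε) g) ≤ 1 - h2 ε) ∧
    (∀ {ι κ : Type} [Fintype ι] [DecidableEq ι] [Fintype κ] [DecidableEq κ] (ε : ℝ),
      0 ≤ ε → ε ≤ 1 → ∀ (sel : (ι → Bool) → κ) (f : (ι → Bool) → Bool),
        mutualInfo (joint (bscN ε) (fun x : ι ⊕ κ → Bool =>
          xor (x (Sum.inr (sel (fun i => x (Sum.inl i))))) (f (fun i => x (Sum.inl i)))))
          ≤ 1 - h2 ε) :=
  ⟨fun _ h0 h1 g s hs hg => ck_matching g s hs hg h0 h1,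
   fun _ h0 h1 sel f => ck_selector h0 h1 sel f⟩

end Vale.Agent.Results.P322.SensitiveMatching
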