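import Vale.Agent.Lib.P322.Xor

/-!
# P322 (Courtade–Kumar conjecture): functions `x₁ XOR f(x₂, …, xₙ)`

Bits are `Bool`s.  The cube of dimension `1 + |ι|` is written `Bool × (ι → Bool)`: a
distinguished bit `z` and the remaining bits `x : ι → Bool`.

* `X` is uniform on the cube `Bool × (ι → Bool)`.
* `Y` is the output of the memoryless binary symmetric channel with crossover probability `ε`
  on input `X`: given `X = (z, x)`, the probability of `Y = (w, y)` is
  `bsc ε z w * bscN ε x y`, i.e. every one of the `1 + |ι|` bits is flipped independently with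
  probability `ε` (`bsc ε z w = 1 - ε` if `z = w` and `ε` otherwise, and `bscN ε x y` is the
  product of `bsc ε (x i) (y i)` over `i : ι`).
* `joint W g b y` is the probability that `g X = b` and `Y = y`.
* `mutualInfo J` is the mutual information in bits of a pair with joint probability mass
  function `J`, and `h2 p = -p log₂ p - (1-p) log₂ (1-p)`.

The theorem: for every finite `ι`, every `f : (ι → Bool) → Bool` and every `ε ∈ [0, 1]`, the
Boolean function `g (z, x) = z XOR f x` satisfies the Courtade–Kumar inequality
`I(g(X); Y) ≤ 1 - h₂(ε)`.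
-/

namespace Vale.Agent.Results.P322.XorCoordinate

open Vale.Agent.Lib.P322

theorem result {ι : Type} [Fintype ι] [DecidableEq ι] (ε : ℝ) (h0 : 0 ≤ ε) (h1 : ε ≤ 1)
    (f : (ι → Bool) → Bool) :
    mutualInfo (joint (fun x y : Bool × (ι → Bool) => bsc ε x.1 y.1 * bscN ε x.2 y.2)
      (fun x : Bool × (ι → Bool) => xor x.1 (f x.2))) ≤ 1 - h2 ε :=
  ck_xor h0 h1 f

end Vale.Agent.Results.P322.XorCoordinate
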